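import Vale.Agent.P182.Clifford

/-!
P182: the matching functional (Gaussian Pfaffian with a spinor bridge) is invariant; where it is
nonzero on the modules it witnesses `HasInv`.
-/

namespace Vale.Agent.P182

open Finset Matrix

variable {n : ℕ} {B : Type*} [DecidableEq B]

/-- Sum over matchings: matched pairs give `P * form`, the others `r * γ`, in order. -/
noncomputable def cliff (P : B → B → ℂ) (r : B → ℂ) :
    List B → (B → Vec n) → Matrix (Finset (Fin n)) (Finset (Fin n)) ℂ
  | [], _ => 1
  | b :: t, v => r b • (gamma (v b) * cliff P r t v) +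
      ∑ j : Fin t.length, ((-1 : ℂ) ^ (j : ℕ) * P b t[j] * form (v b) (v t[j])) •
        cliff P r (t.eraseIdx j) v
termination_by l => l.length
decreasing_by all_goals simp [List.length_eraseIdx]

omit [DecidableEq B] in
lemma cliff_congr (P : B → B → ℂ) (r : B → ℂ) (l : List B) {v w : B → Vec n}
    (h : ∀ b ∈ l, v b = w b) : cliff P r l v = cliff P r l w := by
  induction hl : l.length using Nat.strong_induction_on generalizing l with
  | _ k ih =>
    cases l with
    | nil => simp [cliff]
    | cons b t =>
      rw [cliff, cliff, h b List.mem_cons_self]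
      congr 1
      · rw [ih t.length (by simp at hl; omega) t (fun x hx => h x (List.mem_cons_of_mem _ hx)) rfl]
      · refine sum_congr rfl fun j _ => ?_
        rw [h t[j] (List.mem_cons_of_mem _ (List.getElem_mem _)),
          ih _ (by simp at hl; simp [List.length_eraseIdx]; omega) (t.eraseIdx j)
            (fun x hx => h x (List.mem_cons_of_mem _ (List.mem_of_mem_eraseIdx hx))) rfl]

lemma cliff_update_notMem (P : B → B → ℂ) (r : B → ℂ) {l : List B} (v : B → Vec n) {b : B}
    (hb : b ∉ l) (x : Vec n) : cliff P r l (Function.update v b x) = cliff P r l v :=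
  cliff_congr P r l fun c hc => Function.update_of_ne (fun h => hb (by rw [← h]; exact hc)) _ _

lemma cliff_update_linear (P : B → B → ℂ) (r : B → ℂ) (l : List B) (hl : l.Nodup) {b : B}
    (hb : b ∈ l) (v : B → Vec n) (c : ℂ) (x y : Vec n) :
    cliff P r l (Function.update v b (c • x + y)) =
      c • cliff P r l (Function.update v b x) + cliff P r l (Function.update v b y) := by
  induction hk : l.length using Nat.strong_induction_on generalizing l with
  | _ k ih =>
    cases l with
    | nil => simp at hb
    | cons a t =>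
      obtain ⟨hat, htn⟩ := List.nodup_cons.1 hl
      simp only [cliff]
      by_cases hba : b = a
      · subst hba
        have hne : ∀ j : Fin t.length, t[j] ≠ b := fun j h => hat (h ▸ List.getElem_mem _)
        have hne' : ∀ j : Fin t.length, b ∉ t.eraseIdx j := fun j h =>
          hat (List.mem_of_mem_eraseIdx h)
        simp only [Function.update_self, cliff_update_notMem P r v hat,
          cliff_update_notMem P r v (hne' _), Function.update_of_ne (hne _), form_add_left,
          form_smul_left, gamma_add, gamma_smul, Matrix.add_mul, Matrix.smul_mul, mul_add, add_smul,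
          sum_add_distrib, smul_add, smul_smul, smul_sum]
        rw [mul_comm c (r b), show ∀ p q s w : Matrix (Finset (Fin n)) (Finset (Fin n)) ℂ,
          p + q + (s + w) = p + s + (q + w) from fun p q s w => by abel]
        congr 3
        funext j
        congr 1
        ring
      · have hbt : b ∈ t := (List.mem_cons.1 hb).resolve_left hba
        simp only [Function.update_of_ne (Ne.symm hba)]
        rw [ih t.length (by simp at hk; omega) t htn hbt rfl]
        simp only [Matrix.mul_add, Matrix.mul_smul, smul_add, smul_sum, smul_smul]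
        rw [show ∀ p q s w : Matrix (Finset (Fin n)) (Finset (Fin n)) ℂ,
          p + q + (s + w) = p + s + (q + w) from fun p q s w => by abel, ← sum_add_distrib]
        congr 1
        · rw [mul_comm]
        refine sum_congr rfl fun j _ => ?_
        by_cases hj : t[j] = b
        · have hno : b ∉ t.eraseIdx j := by
            rw [← hj, List.mem_eraseIdx_iff_getElem]
            rintro ⟨i, hi, hij, heq⟩
            exact hij ((htn.getElem_inj_iff).1 heq)
          simp only [hj, Function.update_self, cliff_update_notMem P r v hno,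
            form_comm (v a), form_add_left, form_smul_left]
          rw [← add_smul]
          congr 1
          ring
        · have hin : b ∈ t.eraseIdx j := by
            rw [List.mem_eraseIdx_iff_getElem]
            obtain ⟨i, hi, rfl⟩ := List.mem_iff_getElem.1 hbt
            exact ⟨i, hi, fun h => hj (by simp [h]), rfl⟩
          simp only [Function.update_of_ne hj]
          rw [ih _ (by simp at hk; simp [List.length_eraseIdx]; omega)
            (t.eraseIdx j) (htn.eraseIdx _) hin rfl, smul_add, smul_smul, mul_comm]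

/-- The derivative of the matching sum along a matrix. -/
noncomputable def cliffDer (P : B → B → ℂ) (r : B → ℂ) (X : Matrix (Ix n) (Ix n) ℂ) (l : List B)
    (v : B → Vec n) : Matrix (Finset (Fin n)) (Finset (Fin n)) ℂ :=
  (l.map fun b => cliff P r l (Function.update v b (X *ᵥ v b))).sum

lemma sum_map_smul' {ι : Type*} (l : List ι) (c : ℂ)
    (f : ι → Matrix (Finset (Fin n)) (Finset (Fin n)) ℂ) :
    (l.map fun i => c • f i).sum = c • (l.map f).sum := by
  induction l with
  | nil => simp
  | cons a t ih => simp [ih, smul_add]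

lemma sum_map_mul' {ι : Type*} (l : List ι) (M : Matrix (Finset (Fin n)) (Finset (Fin n)) ℂ)
    (f : ι → Matrix (Finset (Fin n)) (Finset (Fin n)) ℂ) :
    (l.map fun i => M * f i).sum = M * (l.map f).sum := by
  induction l with
  | nil => simp
  | cons a t ih => simp [ih, mul_add]

lemma sum_map_finset' {ι κ : Type*} (l : List ι) (s : Finset κ)
    (f : ι → κ → Matrix (Finset (Fin n)) (Finset (Fin n)) ℂ) :
    (l.map fun i => ∑ j ∈ s, f i j).sum = ∑ j ∈ s, (l.map fun i => f i j).sum := by
  induction l with
  | nil => simp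
  | cons a t ih => simp [ih, sum_add_distrib]

/-- **Equivariance** of the matching sum. -/
lemma cliffDer_eq (P : B → B → ℂ) (r : B → ℂ) {X : Matrix (Ix n) (Ix n) ℂ} (hX : IsSo X)
    (l : List B) (hl : l.Nodup) (v : B → Vec n) :
    cliffDer P r X l v = spinRep X * cliff P r l v - cliff P r l v * spinRep X := by
  induction hk : l.length using Nat.strong_induction_on generalizing l with
  | _ k ih =>
    cases l with
    | nil => simp [cliffDer, cliff]
    | cons a t =>
      obtain ⟨hat, htn⟩ := List.nodup_cons.1 hl
      have iht := ih t.length (by simp at hk; omega) t htn rfl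
      have ihj : ∀ j : Fin t.length, cliffDer P r X (t.eraseIdx j) v =
          spinRep X * cliff P r (t.eraseIdx j) v - cliff P r (t.eraseIdx j) v * spinRep X :=
        fun j => ih _ (by simp at hk; simp [List.length_eraseIdx]; omega) _
          (htn.eraseIdx _) rfl
      -- the head
      have hhead : cliff P r (a :: t) (Function.update v a (X *ᵥ v a)) =
          r a • (gamma (X *ᵥ v a) * cliff P r t v) +
            ∑ j : Fin t.length, ((-1 : ℂ) ^ (j : ℕ) * P a t[j] * form (X *ᵥ v a) (v t[j])) •
              cliff P r (t.eraseIdx j) v := by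
        have hne : ∀ j : Fin t.length, t[j] ≠ a := fun j h => hat (h ▸ List.getElem_mem _)
        have hne' : ∀ j : Fin t.length, a ∉ t.eraseIdx j := fun j h =>
          hat (List.mem_of_mem_eraseIdx h)
        rw [cliff]
        simp only [Function.update_self, cliff_update_notMem P r v hat,
          cliff_update_notMem P r v (hne' _), Function.update_of_ne (hne _)]
      -- the tail
      have htail : (t.map fun b => cliff P r (a :: t) (Function.update v b (X *ᵥ v b))).sum =
          r a • (gamma (v a) * cliffDer P r X t v) +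
            ∑ j : Fin t.length, ((-1 : ℂ) ^ (j : ℕ) * P a t[j]) •
              (form (v a) (X *ᵥ v t[j]) • cliff P r (t.eraseIdx j) v +
                form (v a) (v t[j]) • cliffDer P r X (t.eraseIdx j) v) := by
        have hterm : ∀ b ∈ t, cliff P r (a :: t) (Function.update v b (X *ᵥ v b)) =
            r a • (gamma (v a) * cliff P r t (Function.update v b (X *ᵥ v b))) +
              ∑ j : Fin t.length, ((-1 : ℂ) ^ (j : ℕ) * P a t[j] *
                form (v a) (Function.update v b (X *ᵥ v b) t[j])) •
                cliff P r (t.eraseIdx j) (Function.update v b (X *ᵥ v b)) := fun b hb => by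
          rw [cliff, Function.update_of_ne (fun h => hat (by rw [h]; exact hb))]
        rw [List.map_congr_left hterm, List.sum_map_add]
        congr 1
        · rw [cliffDer, sum_map_smul', sum_map_mul']
        rw [sum_map_finset']
        refine sum_congr rfl fun j _ => ?_
        have hperm : t.Perm (t[j] :: t.eraseIdx j) :=
          (List.getElem_cons_eraseIdx_perm j.2).symm
        rw [(hperm.map _).sum_eq, List.map_cons, List.sum_cons, Function.update_self]
        have hno : t[j] ∉ t.eraseIdx j := (List.nodup_cons.1 (hperm.nodup_iff.1 htn)).1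
        rw [cliff_update_notMem P r v hno, smul_add, smul_smul]
        congr 1
        rw [cliffDer, ← sum_map_smul', ← sum_map_smul']
        refine congrArg List.sum (List.map_congr_left fun b hb => ?_)
        rw [Function.update_of_ne (show t[j] ≠ b from fun h => hno (by rw [h]; exact hb)), smul_smul]
      rw [cliffDer, List.map_cons, List.sum_cons, hhead, htail, iht, cliff]
      simp only [ihj, Matrix.mul_add, Matrix.add_mul, Matrix.mul_smul, Matrix.smul_mul,
        Matrix.mul_sum, Matrix.sum_mul, Matrix.mul_sub]
      have hg : gamma (X *ᵥ v a) = spinRep X * gamma (v a) - gamma (v a) * spinRep X :=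
        (spinRep_gamma hX (v a)).symm
      rw [hg, Matrix.sub_mul]
      simp only [smul_sub, smul_add, smul_smul, sum_add_distrib, sum_sub_distrib, Matrix.mul_assoc]
      have hform : ∑ j : Fin t.length,
            ((-1 : ℂ) ^ (j : ℕ) * P a t[j] * form (X *ᵥ v a) (v t[j])) •
              cliff P r (t.eraseIdx j) v =
          -∑ j : Fin t.length, ((-1 : ℂ) ^ (j : ℕ) * P a t[j] * form (v a) (X *ᵥ v t[j])) •
              cliff P r (t.eraseIdx j) v := by
        rw [← sum_neg_distrib]
        refine sum_congr rfl fun j _ => ?_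
        rw [← neg_smul]
        congr 1
        linear_combination ((-1 : ℂ) ^ (j : ℕ) * P a t[j]) * hX (v a) (v t[j])
      rw [hform]
      abel

section functional

variable {L M N : Fin n → ℤ}

/-- All boxes of the three diagrams. -/
abbrev Box3 (L M N : Fin n → ℤ) := Box L ⊕ (Box M ⊕ Box N)

/-- The matching sum at three basis tensors. -/
noncomputable def cliffAt (P : Box3 L M N → Box3 L M N → ℂ) (r : Box3 L M N → ℂ) (f : Box L → Ix n)
    (g : Box M → Ix n) (h : Box N → Ix n) : Matrix (Finset (Fin n)) (Finset (Fin n)) ℂ :=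
  cliff P r univ.toList (fun b => bvec (Sum.elim f (Sum.elim g h) b))

lemma bvec_mulVec (X : Matrix (Ix n) (Ix n) ℂ) (a : Ix n) :
    X *ᵥ bvec a = ∑ i, X i a • bvec i := by
  funext b
  simp [bvec, Pi.single_apply, Finset.sum_apply]

lemma cliff_update_sum {β : Type*} [DecidableEq β] (P : β → β → ℂ) (r : β → ℂ) {l : List β}
    (hl : l.Nodup) {b : β} (hb : b ∈ l) (v : β → Vec n) (X : Matrix (Ix n) (Ix n) ℂ) (a : Ix n) :
    cliff P r l (Function.update v b (X *ᵥ bvec a)) =
      ∑ i, X i a • cliff P r l (Function.update v b (bvec i)) := by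
  rw [bvec_mulVec]
  suffices ∀ s : Finset (Ix n), cliff P r l (Function.update v b (∑ i ∈ s, X i a • bvec i)) =
      ∑ i ∈ s, X i a • cliff P r l (Function.update v b (bvec i)) from this univ
  intro s
  induction s using Finset.induction_on with
  | empty =>
    have := cliff_update_linear P r l hl hb v (-1) (0 : Vec n) 0
    simp only [smul_zero, add_zero, neg_smul, one_smul, neg_add_cancel] at this
    simpa using this
  | insert i s hi ih => rw [sum_insert hi, sum_insert hi, cliff_update_linear P r l hl hb, ih]

lemma der_cliffAt (P : Box3 L M N → Box3 L M N → ℂ) (r : Box3 L M N → ℂ)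
    {X : Matrix (Ix n) (Ix n) ℂ} (hX : IsSo X) (f : Box L → Ix n) (g : Box M → Ix n)
    (h : Box N → Ix n) :
    (∑ b, ∑ i, X i (f b) • cliffAt P r (Function.update f b i) g h) +
      (∑ b, ∑ i, X i (g b) • cliffAt P r f (Function.update g b i) h) +
      (∑ b, ∑ i, X i (h b) • cliffAt P r f g (Function.update h b i)) =
    spinRep X * cliffAt P r f g h - cliffAt P r f g h * spinRep X := by
  have hsum : ∀ (F : Box3 L M N → Matrix (Finset (Fin n)) (Finset (Fin n)) ℂ),
      ((univ : Finset (Box3 L M N)).toList.map F).sum =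
        (∑ b, F (.inl b)) + (∑ b, F (.inr (.inl b))) + ∑ b, F (.inr (.inr b)) := fun F => by
    rw [Finset.sum_map_toList, Fintype.sum_sum_type, Fintype.sum_sum_type, add_assoc]
  have hd := cliffDer_eq P r hX (univ : Finset (Box3 L M N)).toList (Finset.nodup_toList _)
    (fun b => bvec (Sum.elim f (Sum.elim g h) b))
  rw [cliffDer, hsum] at hd
  rw [cliffAt, ← hd]
  have hmem : ∀ b : Box3 L M N, b ∈ (univ : Finset (Box3 L M N)).toList := fun b =>
    Finset.mem_toList.2 (mem_univ b)
  simp only [cliff_update_sum P r (Finset.nodup_toList _) (hmem _), Sum.elim_inl, Sum.elim_inr,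
    cliffAt]
  have e : ∀ (β : Type) [DecidableEq β] (u : β → Ix n) (c : β) (i : Ix n),
      Function.update (fun b => bvec (u b)) c (bvec i) =
        fun b => bvec (Function.update u c i b) := fun β _ u c i => by
    funext b
    by_cases hb : b = c
    · subst hb; simp
    · simp [hb]
  simp only [e, Sum.update_elim_inl, Sum.update_elim_inr]

/-- The trilinear form with kernel `K`. -/
noncomputable def kerForm (K : CarIx L → CarIx M → CarIx N → ℂ) :
    Car L →ₗ[ℂ] Car M →ₗ[ℂ] Car N →ₗ[ℂ] ℂ :=
  LinearMap.mk₂ ℂ (fun a b => ∑ p, ∑ q, ∑ s, (a p * b q * K p q s) •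
      (LinearMap.proj s : Car N →ₗ[ℂ] ℂ))
    (fun a a' b => by simp [add_mul, add_smul, sum_add_distrib])
    (fun c a b => by simp [smul_sum, smul_smul, mul_assoc])
    (fun a b b' => by simp [mul_add, add_mul, add_smul, sum_add_distrib])
    (fun c a b => by simp [smul_sum, smul_smul]; congr! 4; ring)

lemma kerForm_apply (K : CarIx L → CarIx M → CarIx N → ℂ) (a : Car L) (b : Car M) (c : Car N) :
    kerForm K a b c = ∑ p, ∑ q, ∑ s, a p * b q * c s * K p q s := by
  simp [kerForm, mul_comm, mul_left_comm]

/-- Moving the action onto the kernel. -/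
lemma sum_act (T : Car L) (X : Matrix (Ix n) (Ix n) ℂ) (G : CarIx L → ℂ) :
    ∑ q, act L X T q * G q = ∑ q, T q *
      ((∑ b, ∑ i, X i (q.1 b) * G (Function.update q.1 b i, q.2)) +
        ∑ t, spinPart L X t q.2 * G (q.1, t)) := by
  have hswap : ∀ b : Box L, ∑ q : CarIx L, ∑ j, X (q.1 b) j * T (Function.update q.1 b j, q.2) * G q
      = ∑ q : CarIx L, ∑ i, T q * (X i (q.1 b) * G (Function.update q.1 b i, q.2)) := fun b => by
    rw [← Fintype.sum_prod_type', ← Fintype.sum_prod_type']
    refine Finset.sum_nbij' (fun x => ((Function.update x.1.1 b x.2, x.1.2), x.1.1 b))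
      (fun x => ((Function.update x.1.1 b x.2, x.1.2), x.1.1 b)) (by simp) (by simp)
      (fun x _ => by simp) (fun x _ => by simp) (fun x _ => ?_)
    simp
    ring
  simp only [act, LinearMap.coe_mk, AddHom.coe_mk, add_mul, mul_add, sum_add_distrib, sum_mul,
    mul_sum]
  congr 1
  · rw [sum_comm]
    conv_rhs => rw [sum_comm]
    exact sum_congr rfl fun b _ => hswap b
  · rw [Fintype.sum_prod_type, Fintype.sum_prod_type]
    refine sum_congr rfl fun f _ => ?_
    conv_rhs => rw [sum_comm]
    exact sum_congr rfl fun s _ => sum_congr rfl fun t _ => by ring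

lemma invariant_of_kernel (K : CarIx L → CarIx M → CarIx N → ℂ) (X : Matrix (Ix n) (Ix n) ℂ)
    (hK : ∀ p q s,
      ((∑ b, ∑ i, X i (p.1 b) * K (Function.update p.1 b i, p.2) q s) +
          ∑ t, spinPart L X t p.2 * K (p.1, t) q s) +
        ((∑ b, ∑ i, X i (q.1 b) * K p (Function.update q.1 b i, q.2) s) +
          ∑ t, spinPart M X t q.2 * K p (q.1, t) s) +
        ((∑ b, ∑ i, X i (s.1 b) * K p q (Function.update s.1 b i, s.2)) +
          ∑ t, spinPart N X t s.2 * K p q (s.1, t)) = 0)
    (a : Car L) (b : Car M) (c : Car N) :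
    kerForm K (act L X a) b c + kerForm K a (act M X b) c + kerForm K a b (act N X c) = 0 := by
  have h1 : kerForm K (act L X a) b c = ∑ q, ∑ s, b q * c s * ∑ p, act L X a p * K p q s := by
    rw [kerForm_apply, sum_comm]
    refine sum_congr rfl fun q _ => ?_
    rw [sum_comm]
    exact sum_congr rfl fun s _ => by rw [mul_sum]; exact sum_congr rfl fun p _ => by ring
  have h2 : kerForm K a (act M X b) c = ∑ p, ∑ s, a p * c s * ∑ q, act M X b q * K p q s := by
    rw [kerForm_apply]
    refine sum_congr rfl fun p _ => ?_
    rw [sum_comm]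
    exact sum_congr rfl fun s _ => by rw [mul_sum]; exact sum_congr rfl fun q _ => by ring
  have h3 : kerForm K a b (act N X c) = ∑ p, ∑ q, a p * b q * ∑ s, act N X c s * K p q s := by
    rw [kerForm_apply]
    exact sum_congr rfl fun p _ => sum_congr rfl fun q _ => by
      rw [mul_sum]; exact sum_congr rfl fun s _ => by ring
  simp only [sum_act] at h1 h2 h3
  have g1 : kerForm K (act L X a) b c = ∑ p, ∑ q, ∑ s, a p * b q * c s *
      ((∑ x, ∑ i, X i (p.1 x) * K (Function.update p.1 x i, p.2) q s) +
        ∑ t, spinPart L X t p.2 * K (p.1, t) q s) := by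
    rw [h1]
    conv_rhs => rw [sum_comm]
    refine sum_congr rfl fun q _ => ?_
    conv_rhs => rw [sum_comm]
    refine sum_congr rfl fun s _ => ?_
    rw [mul_sum]
    exact sum_congr rfl fun p _ => by ring
  have g2 : kerForm K a (act M X b) c = ∑ p, ∑ q, ∑ s, a p * b q * c s *
      ((∑ x, ∑ i, X i (q.1 x) * K p (Function.update q.1 x i, q.2) s) +
        ∑ t, spinPart M X t q.2 * K p (q.1, t) s) := by
    rw [h2]
    refine sum_congr rfl fun p _ => ?_
    conv_rhs => rw [sum_comm]
    refine sum_congr rfl fun s _ => ?_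
    rw [mul_sum]
    exact sum_congr rfl fun q _ => by ring
  have g3 : kerForm K a b (act N X c) = ∑ p, ∑ q, ∑ s, a p * b q * c s *
      ((∑ x, ∑ i, X i (s.1 x) * K p q (Function.update s.1 x i, s.2)) +
        ∑ t, spinPart N X t s.2 * K p q (s.1, t)) := by
    rw [h3]
    refine sum_congr rfl fun p _ => sum_congr rfl fun q _ => ?_
    rw [mul_sum]
    exact sum_congr rfl fun s _ => by ring
  rw [g1, g2, g3, ← sum_add_distrib, ← sum_add_distrib]
  refine sum_eq_zero fun p _ => ?_
  rw [← sum_add_distrib, ← sum_add_distrib]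
  refine sum_eq_zero fun q _ => ?_
  rw [← sum_add_distrib, ← sum_add_distrib]
  refine sum_eq_zero fun s _ => ?_
  rw [← mul_add, ← mul_add, hK p q s, mul_zero]

/-- Kernel when the first two weights are half integral. -/
noncomputable def spinKer (P : Box3 L M N → Box3 L M N → ℂ) (r : Box3 L M N → ℂ)
    (p : CarIx L) (q : CarIx M) (s : CarIx N) : ℂ :=
  ((pairing (n := n)) * cliffAt P r p.1 q.1 s.1) p.2 q.2

/-- The certificate for two half integral weights. -/
theorem hasInv_of_spin_cert (hL : IsHalf L) (hM : IsHalf M) (hN : ¬ IsHalf N)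
    (P : Box3 L M N → Box3 L M N → ℂ) (r : Box3 L M N → ℂ) {a : Car L} {b : Car M} {c : Car N}
    (ha : a ∈ hwModule L) (hb : b ∈ hwModule M) (hc : c ∈ hwModule N)
    (hne : kerForm (spinKer P r) a b c ≠ 0) : HasInv L M N := by
  classical
  refine ⟨kerForm (spinKer P r), fun X hX a _ b _ c _ => ?_, a, ha, b, hb, c, hc, hne⟩
  refine invariant_of_kernel _ X (fun p q s => ?_) a b c
  simp only [spinPart, hL, hM, hN, if_true, if_false, Matrix.zero_apply, zero_mul, sum_const_zero,
    add_zero]
  have hsum : ∀ {β : Type} [Fintype β] (u : β → Ix n)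
      (A : β → Ix n → Matrix (Finset (Fin n)) (Finset (Fin n)) ℂ),
      ∑ x, ∑ i, X i (u x) * ((pairing (n := n)) * A x i) p.2 q.2 =
        ((pairing (n := n)) * ∑ x, ∑ i, X i (u x) • A x i) p.2 q.2 := fun u A => by
    simp only [Matrix.mul_sum, Matrix.mul_smul, Matrix.sum_apply, Matrix.smul_apply, smul_eq_mul]
  have h1 : ∑ t, spinRep X t p.2 * spinKer P r (p.1, t) q s =
      ((spinRep X)ᵀ * ((pairing (n := n)) * cliffAt P r p.1 q.1 s.1)) p.2 q.2 := by
    simp [Matrix.mul_apply, spinKer]
  have h2 : ∑ t, spinRep X t q.2 * spinKer P r p (q.1, t) s =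
      ((pairing (n := n)) * cliffAt P r p.1 q.1 s.1 * spinRep X) p.2 q.2 := by
    simp [Matrix.mul_apply, spinKer, mul_comm]
  rw [h1, h2]
  simp only [spinKer, hsum]
  have hd := der_cliffAt P r hX p.1 q.1 s.1
  set A := cliffAt P r p.1 q.1 s.1
  have hB : (spinRep X)ᵀ * ((pairing (n := n)) * A) = -((pairing (n := n)) * spinRep X * A) := by
    rw [← Matrix.mul_assoc, eq_neg_iff_add_eq_zero, ← Matrix.add_mul, spinRep_pairing hX,
      Matrix.zero_mul]
  have := congrArg (fun Z => ((pairing (n := n)) * Z) p.2 q.2) hd
  simp only [Matrix.mul_add, Matrix.mul_sub, Matrix.add_apply, Matrix.sub_apply] at this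
  rw [hB, Matrix.neg_apply, ← Matrix.mul_assoc] at *
  simp only [Matrix.mul_assoc] at this ⊢
  linear_combination this

lemma cliff_zero_comm {β : Type*} [DecidableEq β] (P : β → β → ℂ) (l : List β) (v : β → Vec n)
    (M₀ : Matrix (Finset (Fin n)) (Finset (Fin n)) ℂ) :
    M₀ * cliff P 0 l v = cliff P 0 l v * M₀ := by
  induction hk : l.length using Nat.strong_induction_on generalizing l with
  | _ k ih =>
    cases l with
    | nil => simp [cliff]
    | cons a t =>
      simp only [cliff, Pi.zero_apply, zero_smul, zero_add, Matrix.mul_sum, Matrix.sum_mul,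
        Matrix.mul_smul, Matrix.smul_mul]
      refine sum_congr rfl fun j _ => ?_
      rw [ih _ (by simp at hk; simp [List.length_eraseIdx]; omega) _ rfl]

/-- Kernel for three integral weights. -/
noncomputable def intKer (P : Box3 L M N → Box3 L M N → ℂ)
    (p : CarIx L) (q : CarIx M) (s : CarIx N) : ℂ :=
  cliffAt P 0 p.1 q.1 s.1 ∅ ∅

/-- The certificate for integral weights. -/
theorem hasInv_of_int_cert (hL : ¬ IsHalf L) (hM : ¬ IsHalf M) (hN : ¬ IsHalf N)
    (P : Box3 L M N → Box3 L M N → ℂ) {a : Car L} {b : Car M} {c : Car N}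
    (ha : a ∈ hwModule L) (hb : b ∈ hwModule M) (hc : c ∈ hwModule N)
    (hne : kerForm (intKer P) a b c ≠ 0) : HasInv L M N := by
  classical
  refine ⟨kerForm (intKer P), fun X hX a _ b _ c _ => ?_, a, ha, b, hb, c, hc, hne⟩
  refine invariant_of_kernel _ X (fun p q s => ?_) a b c
  simp only [spinPart, hL, hM, hN, if_false, Matrix.zero_apply, zero_mul, sum_const_zero, add_zero]
  have hd := congrArg (fun Z => Z ∅ ∅) (der_cliffAt P 0 hX p.1 q.1 s.1)
  have hcomm : spinRep X * cliffAt P 0 p.1 q.1 s.1 - cliffAt P 0 p.1 q.1 s.1 * spinRep X = 0 :=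
    sub_eq_zero.2 (cliff_zero_comm _ _ _ _)
  rw [hcomm] at hd
  simpa [Matrix.sum_apply, intKer] using hd

end functional

end Vale.Agent.P182
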