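import Vale.Agent.P182.Necessity

/-!
P182: Clifford relations, equivariance of the generators, the invariant bilinear form on spinors,
and the equivariant matching functional.
-/

namespace Vale.Agent.P182

open Finset Matrix

variable {n : ℕ}

lemma gamma_add (u v : Vec n) : gamma (u + v) = gamma u + gamma v := by
  simp [gamma, add_smul, sum_add_distrib]

lemma gamma_smul (c : ℂ) (v : Vec n) : gamma (c • v) = c • gamma v := by
  simp [gamma, smul_sum, smul_smul]

lemma gamma_sum {ι : Type*} (s : Finset ι) (v : ι → Vec n) :
    gamma (∑ i ∈ s, v i) = ∑ i ∈ s, gamma (v i) := by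
  classical
  induction s using Finset.induction_on with
  | empty => simp [gamma]
  | insert a s ha ih => rw [sum_insert ha, gamma_add, ih, sum_insert ha]

lemma form_add_left (u u' v : Vec n) : form (u + u') v = form u v + form u' v := by
  simp [form, add_mul, sum_add_distrib]

lemma form_smul_left (c : ℂ) (u v : Vec n) : form (c • u) v = c * form u v := by
  simp only [form, mul_sum, Pi.smul_apply, smul_eq_mul, mul_assoc]

lemma form_comm (u v : Vec n) : form u v = form v u := by
  unfold form
  rw [← Equiv.sum_comp (Equiv.sumComm (Fin n) (Fin n))]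
  simp [mul_comm]

lemma fsign_sq (i : Fin n) (s : Finset (Fin n)) : fsign i s * fsign i s = 1 := by
  simp [fsign, ← pow_add, ← two_mul, pow_mul]

lemma fsign_insert (i j : Fin n) {s : Finset (Fin n)} (h : j ∉ s) :
    fsign i (insert j s) = (if j < i then -1 else 1) * fsign i s := by
  unfold fsign
  rw [filter_insert]
  split_ifs with hji
  · rw [card_insert_of_notMem (fun hh => h (mem_filter.1 hh).1), pow_succ]; ring
  · simp

lemma fsign_erase (i j : Fin n) {s : Finset (Fin n)} (h : j ∈ s) :
    fsign i (s.erase j) = (if j < i then -1 else 1) * fsign i s := by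
  have := fsign_insert i j (notMem_erase j s)
  rw [insert_erase h] at this
  rw [this, ← mul_assoc]
  split_ifs <;> ring

/-- The index changed by a generator. -/
def idx : Ix n → Fin n := Sum.elim id id

/-- Where a generator sends a spinor row. -/
def target : Ix n → Finset (Fin n) → Finset (Fin n)
  | .inl i, s => s.erase i
  | .inr i, s => insert i s

/-- The coefficient of that move. -/
def coeff : Ix n → Finset (Fin n) → ℂ
  | .inl i, s => if i ∈ s then fsign i s else 0
  | .inr i, s => if i ∉ s then 2 * fsign i s else 0

lemma gammaBasis_apply (a : Ix n) (s t : Finset (Fin n)) :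
    gammaBasis a s t = if t = target a s then coeff a s else 0 := by
  cases a <;> simp [gammaBasis, target, coeff, ite_and] <;> split_ifs <;> rfl

lemma gammaBasis_mul_apply (a b : Ix n) (s t : Finset (Fin n)) :
    (gammaBasis a * gammaBasis b) s t =
      if t = target b (target a s) then coeff a s * coeff b (target a s) else 0 := by
  rw [mul_apply, sum_eq_single (target a s)]
  · rw [gammaBasis_apply, gammaBasis_apply, if_pos rfl, mul_ite, mul_zero]
  · intro u _ hu; rw [gammaBasis_apply, if_neg hu, zero_mul]
  · simp

lemma gammaBasis_anticomm (a b : Ix n) :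
    gammaBasis a * gammaBasis b + gammaBasis b * gammaBasis a =
      (if b = a.swap then (2 : ℂ) else 0) • 1 := by
  ext s t
  rw [Matrix.add_apply, gammaBasis_mul_apply, gammaBasis_mul_apply, Matrix.smul_apply, one_apply]
  rcases eq_or_ne (idx a) (idx b) with hab | hab
  · cases a with
    | inl i =>
      cases b with
      | inl j =>
        obtain rfl : i = j := hab
        simp [target, coeff]
      | inr j =>
        obtain rfl : i = j := hab
        by_cases h : i ∈ s
        · simp [target, coeff, h, fsign_erase i i h, eq_comm]
          split_ifs <;> first | linear_combination (-2 : ℂ) * fsign_sq i s | ring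
        · simp [target, coeff, h, fsign_insert i i h, eq_comm]
          split_ifs <;> first | linear_combination (-2 : ℂ) * fsign_sq i s | ring
    | inr i =>
      cases b with
      | inl j =>
        obtain rfl : i = j := hab
        by_cases h : i ∈ s
        · simp [target, coeff, h, fsign_erase i i h, eq_comm]
          split_ifs <;> first | linear_combination (-2 : ℂ) * fsign_sq i s | ring
        · simp [target, coeff, h, fsign_insert i i h, eq_comm]
          split_ifs <;> first | linear_combination (-2 : ℂ) * fsign_sq i s | ring
      | inr j =>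
        obtain rfl : i = j := hab
        simp [target, coeff]
  · have hba : b ≠ a.swap := fun h => hab (by subst h; cases a <;> rfl)
    have htt : target b (target a s) = target a (target b s) := by
      cases a <;> cases b <;> simp [idx] at hab <;>
        simp [target, Finset.ext_iff] <;> aesop
    have hsum : coeff a s * coeff b (target a s) + coeff b s * coeff a (target b s) = 0 := by
      cases a with
      | inl i =>
        cases b with
        | inl j =>
          simp only [idx, Sum.elim_inl, id_eq] at hab
          by_cases h1 : i ∈ s <;> by_cases h2 : j ∈ s <;>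
            simp [target, coeff, h1, h2, hab, Ne.symm hab, fsign_erase]
          rcases lt_or_gt_of_ne hab with h | h <;> simp [h, not_lt_of_gt h] <;> ring
        | inr j =>
          simp only [idx, Sum.elim_inl, Sum.elim_inr, id_eq] at hab
          by_cases h1 : i ∈ s <;> by_cases h2 : j ∈ s <;>
            simp [target, coeff, h1, h2, hab, Ne.symm hab, fsign_erase, fsign_insert]
          rcases lt_or_gt_of_ne hab with h | h <;> simp [h, not_lt_of_gt h] <;> ring
      | inr i =>
        cases b with
        | inl j =>
          simp only [idx, Sum.elim_inl, Sum.elim_inr, id_eq] at hab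
          by_cases h1 : i ∈ s <;> by_cases h2 : j ∈ s <;>
            simp [target, coeff, h1, h2, hab, Ne.symm hab, fsign_erase, fsign_insert]
          rcases lt_or_gt_of_ne hab with h | h <;> simp [h, not_lt_of_gt h] <;> ring
        | inr j =>
          simp only [idx, Sum.elim_inr, id_eq] at hab
          by_cases h1 : i ∈ s <;> by_cases h2 : j ∈ s <;>
            simp [target, coeff, h1, h2, hab, Ne.symm hab, fsign_insert]
          rcases lt_or_gt_of_ne hab with h | h <;> simp [h, not_lt_of_gt h] <;> ring
    rw [if_neg hba, zero_smul, ← htt]
    split_ifs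
    · exact hsum
    · ring

/-- The Clifford relation. -/
lemma gamma_anticomm (u v : Vec n) :
    gamma u * gamma v + gamma v * gamma u = (2 * form u v) • 1 := by
  have h : ∀ u v : Vec n, gamma u * gamma v =
      ∑ a, ∑ b, (u a * v b) • (gammaBasis a * gammaBasis b) := fun u v => by
    simp only [gamma, Matrix.sum_mul, Matrix.mul_sum, Matrix.smul_mul, Matrix.mul_smul, smul_smul,
      smul_sum, mul_comm (v _) (u _)]
    rw [Finset.sum_comm]
  rw [h u v, h v u, Finset.sum_comm (f := fun a b => (v a * u b) • (gammaBasis a * gammaBasis b)),
    ← sum_add_distrib]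
  simp only [← sum_add_distrib, mul_comm (v _) (u _), ← smul_add, gammaBasis_anticomm, smul_smul,
    mul_ite, mul_zero, ← sum_smul]
  congr 1
  rw [form, mul_sum]
  refine sum_congr rfl fun a _ => ?_
  rw [sum_ite_eq', if_pos (mem_univ _)]
  ring

/-- Standard basis vector. -/
def bvec (a : Ix n) : Vec n := Pi.single a 1

lemma gamma_bvec (a : Ix n) : gamma (bvec a) = gammaBasis a := by
  rw [bvec, gamma_smul_single, one_smul]

lemma form_bvec (a : Ix n) (v : Vec n) : form (bvec a) v = v a.swap := by
  rw [form, sum_eq_single a] <;> simp +contextual [bvec]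

/-- The spinor action is compatible with the generators. -/
lemma spinRep_gamma {X : Matrix (Ix n) (Ix n) ℂ} (hX : IsSo X) (v : Vec n) :
    spinRep X * gamma v - gamma v * spinRep X = gamma (X *ᵥ v) := by
  have hterm : ∀ a : Ix n, gamma (fun b => X b a) * gammaBasis a.swap * gamma v -
      gamma v * (gamma (fun b => X b a) * gammaBasis a.swap) =
      (2 * v a) • gamma (fun b => X b a) +
        (2 * (X *ᵥ v) a.swap) • gammaBasis a.swap := fun a => by
    have h1 : gammaBasis a.swap * gamma v = (2 * v a) • 1 - gamma v * gammaBasis a.swap := by
      rw [eq_sub_iff_add_eq, ← gamma_bvec, gamma_anticomm, form_bvec, Sum.swap_swap]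
    have hc : (fun b => X b a) = X *ᵥ bvec a := by
      funext b; simp [bvec]
    have h2 : gamma v * gamma (fun b => X b a) =
        (-(2 * (X *ᵥ v) a.swap)) • 1 - gamma (fun b => X b a) * gamma v := by
      rw [eq_sub_iff_add_eq, gamma_anticomm, hc]
      congr 1
      have := hX v (bvec a)
      rw [form_comm (X *ᵥ v), form_bvec] at this
      linear_combination 2 * this
    rw [Matrix.mul_assoc, h1, Matrix.mul_sub, Matrix.mul_smul, Matrix.mul_one, ← Matrix.mul_assoc,
      ← Matrix.mul_assoc, h2, Matrix.sub_mul, Matrix.smul_mul, Matrix.one_mul, neg_smul]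
    abel
  rw [spinRep, Matrix.smul_mul, Matrix.mul_smul, ← smul_sub, Matrix.sum_mul, Matrix.mul_sum,
    ← sum_sub_distrib]
  simp only [hterm, sum_add_distrib]
  have hA : ∑ a, (2 * v a) • gamma (fun b => X b a) = (2 : ℂ) • gamma (X *ᵥ v) := by
    simp only [← gamma_smul, ← gamma_sum]
    congr 1
    funext b
    simp only [mulVec, dotProduct, Finset.sum_apply, Pi.smul_apply, smul_eq_mul, mul_sum]
    exact sum_congr rfl fun a _ => by ring
  have hB : ∑ a : Ix n, (2 * (X *ᵥ v) a.swap) • gammaBasis a.swap = (2 : ℂ) • gamma (X *ᵥ v) := by
    rw [← Equiv.sum_comp (Equiv.sumComm (Fin n) (Fin n))]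
    simp [gamma, smul_sum, smul_smul]
  rw [hA, hB, ← add_smul, smul_smul]
  norm_num

lemma trace_so {X : Matrix (Ix n) (Ix n) ℂ} (hX : IsSo X) (a : Ix n) :
    X a a + X a.swap a.swap = 0 := by
  have h := hX (bvec a) (bvec a.swap)
  rw [form_comm (X *ᵥ bvec a), form_bvec, form_bvec, Sum.swap_swap] at h
  simpa [bvec, add_comm] using h

/-- The sign of the pairing of a spinor basis vector with its complement. -/
def pairSign (s : Finset (Fin n)) : ℂ := (-1) ^ ∑ i ∈ s, (i : ℕ)

/-- The invariant bilinear form on spinors. -/
def pairing : Matrix (Finset (Fin n)) (Finset (Fin n)) ℂ :=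
  Matrix.of fun s t => if t = sᶜ then pairSign s else 0

lemma fsign_compl (i : Fin n) (s : Finset (Fin n)) :
    fsign i s * fsign i sᶜ = (-1) ^ (i : ℕ) := by
  unfold fsign
  rw [← pow_add, ← card_union_of_disjoint]
  · congr 1
    rw [← filter_union, union_compl, ← Fin.card_Iio]
    congr 1
    ext j; simp
  · exact disjoint_left.2 fun j hj hj' => (mem_compl.1 (mem_filter.1 hj').1) (mem_filter.1 hj).1

lemma gammaBasis_pairing (a : Ix n) :
    (gammaBasis a)ᵀ * pairing = pairing * gammaBasis a := by
  ext s t
  rw [mul_apply, mul_apply, sum_eq_single (target a.swap s)]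
  · rw [sum_eq_single sᶜ]
    · simp only [transpose_apply, gammaBasis_apply, pairing, of_apply, if_true]
      cases a with
      | inl i =>
        by_cases h : i ∈ s
        · simp [target, coeff, h]
          intro _ h2
          rw [h2] at h
          exact absurd h (notMem_erase i s)
        · have e : (insert i s)ᶜ = sᶜ.erase i := by ext j; simp
          have hs : pairSign (insert i s) = (-1) ^ (i : ℕ) * pairSign s := by
            simp [pairSign, h, pow_add]
          simp [target, coeff, h, e, hs, fsign_insert i i h]
          split_ifs
          · linear_combination (pairSign s) * (fsign i s) * (fsign_compl i s).symm +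
              (pairSign s) * (fsign i sᶜ) * fsign_sq i s
          · rfl
      | inr i =>
        by_cases h : i ∈ s
        · have e : (s.erase i)ᶜ = insert i sᶜ := by ext j; simp [or_iff_not_imp_left]
          have hs : pairSign (s.erase i) = (-1) ^ (i : ℕ) * pairSign s := by
            have : pairSign s = (-1) ^ (i : ℕ) * pairSign (s.erase i) := by
              rw [pairSign, ← add_sum_erase s _ h, pow_add]; rfl
            rw [this, ← mul_assoc, ← pow_add, ← two_mul, pow_mul]; simp
          simp [target, coeff, h, e, hs, fsign_erase i i h]
          split_ifs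
          · linear_combination 2 * (pairSign s) * (fsign i s) * (fsign_compl i s).symm +
              2 * (pairSign s) * (fsign i sᶜ) * fsign_sq i s
          · rfl
        · simp [target, coeff, h]
          intro _ h2
          rw [h2] at h
          exact absurd (mem_insert_self i s) h
    · intro u _ hu; simp [pairing, hu]
    · simp
  · intro u _ hu
    rw [transpose_apply, gammaBasis_apply]
    split_ifs with h
    · cases a with
      | inl i =>
        by_cases hi : i ∈ u
        · exact absurd (by simp [target] at h ⊢; rw [h, insert_erase hi]) hu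
        · simp [coeff, hi]
      | inr i =>
        by_cases hi : i ∈ u
        · simp [coeff, hi]
        · exact absurd (by simp [target] at h ⊢; rw [h, erase_insert hi]) hu
    · simp
  · simp

lemma gamma_pairing (v : Vec n) : (gamma v)ᵀ * pairing = pairing * gamma v := by
  simp only [gamma, transpose_sum, transpose_smul, Matrix.sum_mul, Matrix.mul_sum, Matrix.smul_mul,
    Matrix.mul_smul, gammaBasis_pairing]

lemma spinRep_pairing {X : Matrix (Ix n) (Ix n) ℂ} (hX : IsSo X) :
    (spinRep X)ᵀ * pairing + pairing * spinRep X = 0 := by
  rw [spinRep, transpose_smul, Matrix.smul_mul, Matrix.mul_smul, ← smul_add, transpose_sum,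
    Matrix.sum_mul, Matrix.mul_sum, ← sum_add_distrib]
  have hterm : ∀ a : Ix n,
      (gamma (fun b => X b a) * gammaBasis a.swap)ᵀ * pairing +
        pairing * (gamma (fun b => X b a) * gammaBasis a.swap) =
      (2 * X a a) • pairing := fun a => by
    rw [transpose_mul, Matrix.mul_assoc, gamma_pairing, ← Matrix.mul_assoc, gammaBasis_pairing,
      Matrix.mul_assoc, ← Matrix.mul_add, ← gamma_bvec, gamma_anticomm, form_bvec, Sum.swap_swap,
      Matrix.mul_smul, Matrix.mul_one]
  simp only [hterm, ← sum_smul, ← mul_sum]
  have h0 : ∑ a, X a a = 0 := by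
    have h : ∑ a, X a a = ∑ a : Ix n, X a.swap a.swap :=
      (Equiv.sum_comp (Equiv.sumComm (Fin n) (Fin n)) fun a => X a a).symm
    have h2 : ∑ a, (X a a + X a.swap a.swap) = 0 := sum_eq_zero fun a _ => trace_so hX a
    rw [sum_add_distrib, ← h] at h2
    linear_combination h2 / 2
  simp [h0]

end Vale.Agent.P182
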