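import Mathlib

/-!
P182: highest weight modules of the even spin groups, invariant trilinear forms, saturation.
A weight is recorded by its doubled coordinates. See notes/P182/SPIN_helper1.md.
-/

namespace Vale.Agent.P182

open Finset Matrix

/-- Index set of the hyperbolic basis `e_i`, `f_i`. -/
abbrev Ix (n : ℕ) := Fin n ⊕ Fin n

/-- The quadratic space. -/
abbrev Vec (n : ℕ) := Ix n → ℂ

variable {n : ℕ}

/-- The symmetric form with `(e_i, f_j) = δ_ij`. -/
def form (u v : Vec n) : ℂ := ∑ a, u a * v a.swap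

/-- The Lie algebra of the form. -/
def IsSo (X : Matrix (Ix n) (Ix n) ℂ) : Prop :=
  ∀ u v, form (X *ᵥ u) v + form u (X *ᵥ v) = 0

/-- The sign in the action of the `i`th creation operator. -/
def fsign (i : Fin n) (s : Finset (Fin n)) : ℂ := (-1) ^ (s.filter fun j => j < i).card

/-- Clifford generators on the exterior algebra: `e_i` creates, `f_i` is twice annihilation. -/
def gammaBasis : Ix n → Matrix (Finset (Fin n)) (Finset (Fin n)) ℂ
  | .inl i => Matrix.of fun s t => if i ∈ s ∧ t = s.erase i then fsign i s else 0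
  | .inr i => Matrix.of fun s t => if i ∉ s ∧ t = insert i s then 2 * fsign i s else 0

/-- Clifford multiplication by a vector. -/
def gamma (v : Vec n) : Matrix (Finset (Fin n)) (Finset (Fin n)) ℂ := ∑ a, v a • gammaBasis a

/-- The spinor action `1/4 ∑ γ(X e_a) γ(e^a)`. -/
noncomputable def spinRep (X : Matrix (Ix n) (Ix n) ℂ) :
    Matrix (Finset (Fin n)) (Finset (Fin n)) ℂ :=
  (1 / 4 : ℂ) • ∑ a, gamma (fun b => X b a) * gammaBasis a.swap

/-- A doubled weight: all coordinates of one parity. -/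
def IsWeight (L : Fin n → ℤ) : Prop := ∀ i j, (2 : ℤ) ∣ L i - L j

/-- Dominance: `l_1 ≥ ... ≥ l_{n-1} ≥ |l_n|`. -/
def IsDominant (L : Fin n → ℤ) : Prop := ∀ i j, i < j → |L j| ≤ L i

/-- Half integral weights. -/
def IsHalf (L : Fin n → ℤ) : Prop := ∃ i, ¬ (2 : ℤ) ∣ L i

/-- The sum of the three weights lies in the root lattice. -/
def InRootLattice (L M N : Fin n → ℤ) : Prop :=
  (∀ i, (2 : ℤ) ∣ L i + M i + N i) ∧ (4 : ℤ) ∣ ∑ i, (L i + M i + N i)

/-- Boxes of the diagram of the integral part: row `i` has `⌊|l_i|⌋` boxes. -/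
abbrev Box (L : Fin n → ℤ) := Σ i : Fin n, Fin ((L i).natAbs / 2)

/-- Basis of the carrier: one vector index per box and one spinor index. -/
abbrev CarIx (L : Fin n → ℤ) := (Box L → Ix n) × Finset (Fin n)

/-- The carrier: tensors over the boxes with a spinor slot. -/
abbrev Car (L : Fin n → ℤ) := CarIx L → ℂ

/-- The vector carried by row `i`. -/
def rowIx (L : Fin n → ℤ) (i : Fin n) : Ix n := if L i < 0 then .inr i else .inl i

/-- The pure spinor of the weight. -/
def topSpinor (L : Fin n → ℤ) : Finset (Fin n) := univ.filter fun i => 0 ≤ L i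

/-- Highest weight vector: each column antisymmetrised, times the pure spinor. -/
noncomputable def hwVec (L : Fin n → ℤ) : Car L := fun q =>
  if q.2 = topSpinor L then
    ∑ σ : Equiv.Perm (Box L), if ∀ b, ((σ b).2 : ℕ) = (b.2 : ℕ) ∧ q.1 b = rowIx L (σ b).1 then
      (Equiv.Perm.sign σ : ℂ) else 0
  else 0

open scoped Classical in
/-- The spinor part of the action. -/
noncomputable def spinPart (L : Fin n → ℤ) (X : Matrix (Ix n) (Ix n) ℂ) :
    Matrix (Finset (Fin n)) (Finset (Fin n)) ℂ :=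
  if IsHalf L then spinRep X else 0

/-- The action of a matrix as a derivation. -/
noncomputable def act (L : Fin n → ℤ) (X : Matrix (Ix n) (Ix n) ℂ) : Car L →ₗ[ℂ] Car L where
  toFun T q := (∑ b, ∑ j, X (q.1 b) j * T (Function.update q.1 b j, q.2)) +
    ∑ t, spinPart L X q.2 t * T (q.1, t)
  map_add' S T := by
    funext q
    simp only [Pi.add_apply, mul_add, Finset.sum_add_distrib]
    ring
  map_smul' c T := by
    funext q
    simp only [Pi.smul_apply, smul_eq_mul, RingHom.id_apply, mul_add, Finset.mul_sum]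
    congr 1
    · exact Finset.sum_congr rfl fun b _ => Finset.sum_congr rfl fun j _ => mul_left_comm _ _ _
    · exact Finset.sum_congr rfl fun t _ => mul_left_comm _ _ _

/-- The module generated by the highest weight vector. -/
noncomputable def hwModule (L : Fin n → ℤ) : Submodule ℂ (Car L) :=
  sInf {S | hwVec L ∈ S ∧ ∀ X, IsSo X → ∀ T ∈ S, act L X T ∈ S}

/-- The triple of modules has a nonzero invariant trilinear form. -/
def HasInv (L M N : Fin n → ℤ) : Prop :=
  ∃ Φ : Car L →ₗ[ℂ] Car M →ₗ[ℂ] Car N →ₗ[ℂ] ℂ,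
    (∀ X, IsSo X → ∀ a ∈ hwModule L, ∀ b ∈ hwModule M, ∀ c ∈ hwModule N,
      Φ (act L X a) b c + Φ a (act M X b) c + Φ a b (act N X c) = 0) ∧
    ∃ a ∈ hwModule L, ∃ b ∈ hwModule M, ∃ c ∈ hwModule N, Φ a b c ≠ 0

/-- The saturation property in rank `n`. -/
def Saturation (n : ℕ) : Prop :=
  ∀ L M N : Fin n → ℤ, IsWeight L → IsWeight M → IsWeight N → IsDominant L → IsDominant M →
    IsDominant N → InRootLattice L M N →
    (∃ k : ℕ, 1 ≤ k ∧ HasInv (fun i => (k : ℤ) * L i) (fun i => (k : ℤ) * M i)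
      (fun i => (k : ℤ) * N i)) → HasInv L M N

lemma hwVec_mem (L : Fin n → ℤ) : hwVec L ∈ hwModule L :=
  Submodule.mem_sInf.2 fun _ h => h.1

lemma act_mem {L : Fin n → ℤ} {X : Matrix (Ix n) (Ix n) ℂ} (hX : IsSo X) {T : Car L}
    (hT : T ∈ hwModule L) : act L X T ∈ hwModule L :=
  Submodule.mem_sInf.2 fun _ h => h.2 X hX T (Submodule.mem_sInf.1 hT _ h)

lemma hwModule_le {L : Fin n → ℤ} {S : Submodule ℂ (Car L)} (h1 : hwVec L ∈ S)
    (h2 : ∀ X, IsSo X → ∀ T ∈ S, act L X T ∈ S) : hwModule L ≤ S :=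
  sInf_le ⟨h1, h2⟩

end Vale.Agent.P182
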