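import Vale.Agent.P182.Defs

/-!
P182: a nonzero invariant forces weight zero among the supports, for every torus element.
This is the one-parameter subgroup argument in Lie algebra form; no invariant theory is used.
-/

namespace Vale.Agent.P182

open Finset Matrix

variable {n : ℕ}

/-- Diagonal element of the Lie algebra. -/
def torus (z : Fin n → ℂ) : Matrix (Ix n) (Ix n) ℂ :=
  Matrix.diagonal (Sum.elim z fun i => -z i)

lemma isSo_torus (z : Fin n → ℂ) : IsSo (torus z) := by
  intro u v
  simp only [form, torus, mulVec_diagonal, ← sum_add_distrib]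
  refine sum_eq_zero fun a _ => ?_
  cases a <;> simp [Sum.elim] <;> ring

/-- Weight of a spinor basis vector. -/
noncomputable def spinWt (z : Fin n → ℂ) (s : Finset (Fin n)) : ℂ :=
  ∑ i, if i ∈ s then z i / 2 else -z i / 2

open scoped Classical in
/-- Weight of a basis vector of the carrier. -/
noncomputable def wt (L : Fin n → ℤ) (z : Fin n → ℂ) (q : CarIx L) : ℂ :=
  (∑ b, Sum.elim z (fun i => -z i) (q.1 b)) + if IsHalf L then spinWt z q.2 else 0

lemma gamma_smul_single (c : ℂ) (a : Ix n) :
    gamma (Pi.single a c) = c • gammaBasis a := by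
  rw [gamma, sum_eq_single a]
  · rw [Pi.single_eq_same]
  · intro b _ hb; rw [Pi.single_eq_of_ne hb, zero_smul]
  · simp

lemma gamma_pair_apply (i : Fin n) (s t : Finset (Fin n)) :
    (gammaBasis (Sum.inl i) * gammaBasis (Sum.inr i)) s t =
        (if s = t ∧ i ∈ s then 2 else 0) ∧
      (gammaBasis (Sum.inr i) * gammaBasis (Sum.inl i)) s t =
        (if s = t ∧ i ∉ s then 2 else 0) := by
  have hsq : ∀ (u : Finset (Fin n)), fsign i u * fsign i u = 1 := fun u => by
    simp [fsign, ← pow_add, ← two_mul, pow_mul]
  have he : ∀ u : Finset (Fin n), fsign i (u.erase i) = fsign i u := fun u => by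
    unfold fsign
    congr 2
    ext j
    simp only [mem_filter, mem_erase]
    exact ⟨fun h => ⟨h.1.2, h.2⟩, fun h => ⟨⟨ne_of_lt h.2, h.1⟩, h.2⟩⟩
  have hi : ∀ u : Finset (Fin n), fsign i (insert i u) = fsign i u := fun u => by
    unfold fsign
    congr 2
    ext j
    simp only [mem_filter, mem_insert]
    exact ⟨fun h => ⟨h.1.resolve_left (ne_of_lt h.2), h.2⟩, fun h => ⟨Or.inr h.1, h.2⟩⟩
  constructor
  · rw [mul_apply]
    by_cases h : i ∈ s
    · rw [sum_eq_single (s.erase i)]
      · by_cases hst : s = t
        · subst hst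
          simp [gammaBasis, h, he]
          linear_combination 2 * hsq s
        · simp [gammaBasis, h, hst, Ne.symm hst]
      · intro u _ hu; simp [gammaBasis, hu]
      · simp
    · simp [gammaBasis, h]
  · rw [mul_apply]
    by_cases h : i ∈ s
    · simp [gammaBasis, h]
    · rw [sum_eq_single (insert i s)]
      · by_cases hst : s = t
        · subst hst
          simp [gammaBasis, h, hi]
          linear_combination 2 * hsq s
        · simp [gammaBasis, h, hst, Ne.symm hst]
      · intro u _ hu; simp [gammaBasis, hu]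
      · simp

lemma spinRep_torus (z : Fin n → ℂ) (s t : Finset (Fin n)) :
    spinRep (torus z) s t = if t = s then spinWt z s else 0 := by
  have hcol : ∀ a : Ix n, (fun b => torus z b a) = Pi.single a (Sum.elim z (fun i => -z i) a) := by
    intro a
    funext b
    by_cases h : b = a
    · subst h; simp [torus]
    · simp [torus, h]
  simp only [spinRep, hcol, gamma_smul_single, Matrix.smul_mul, Fintype.sum_sum_type,
    Sum.elim_inl, Sum.elim_inr, Sum.swap_inl, Sum.swap_inr, neg_smul, sum_neg_distrib]
  rw [Matrix.smul_apply, Matrix.add_apply, Matrix.neg_apply, Matrix.sum_apply, Matrix.sum_apply]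
  simp only [Matrix.smul_apply, smul_eq_mul, fun i => (gamma_pair_apply (n := n) i s t).1,
    fun i => (gamma_pair_apply (n := n) i s t).2]
  rw [← sub_eq_add_neg, ← sum_sub_distrib]
  by_cases h : t = s
  · subst h
    simp only [true_and, if_true, spinWt, mul_sum]
    refine sum_congr rfl fun i _ => ?_
    split_ifs <;> ring
  · simp [h, Ne.symm h]

lemma act_torus (L : Fin n → ℤ) (z : Fin n → ℂ) (T : Car L) (q : CarIx L) :
    act L (torus z) T q = wt L z q * T q := by
  classical
  simp only [act, LinearMap.coe_mk, AddHom.coe_mk, wt, add_mul, sum_mul]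
  congr 1
  · refine sum_congr rfl fun b _ => ?_
    rw [sum_eq_single (q.1 b)]
    · simp [torus]
    · intro j _ hj; simp [torus, Ne.symm hj]
    · simp
  · by_cases hL : IsHalf L
    · simp [spinPart, hL, spinRep_torus]
    · simp [spinPart, hL]

/-- Polynomials in the weight act on the module. -/
lemma poly_mul_mem {L : Fin n → ℤ} (z : Fin n → ℂ) (p : Polynomial ℂ) :
    ∀ T ∈ hwModule L, (fun q => p.eval (wt L z q) * T q) ∈ hwModule L := by
  induction p using Polynomial.induction_on' with
  | add p r hp hr =>
    intro T hT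
    convert (hwModule L).add_mem (hp T hT) (hr T hT) using 1
    funext q; simp [add_mul]
  | monomial k c =>
    intro T hT
    induction k generalizing T with
    | zero =>
      convert (hwModule L).smul_mem c hT using 1
      funext q; simp
    | succ k ih =>
      convert ih _ (act_mem (isSo_torus z) hT) using 1
      funext q
      simp [act_torus, pow_succ]
      ring

open scoped Classical in
/-- The component of weight `w`. -/
noncomputable def comp (L : Fin n → ℤ) (z : Fin n → ℂ) (w : ℂ) (T : Car L) : Car L := fun q =>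
  if wt L z q = w then T q else 0

lemma comp_mem {L : Fin n → ℤ} (z : Fin n → ℂ) (w : ℂ) {T : Car L} (hT : T ∈ hwModule L) :
    comp L z w T ∈ hwModule L := by
  classical
  set p : Polynomial ℂ := Lagrange.interpolate (insert w (univ.image (wt L z))) id
    (fun u => if u = w then 1 else 0) with hp
  convert poly_mul_mem z p T hT using 1
  funext q
  have h := Lagrange.eval_interpolate_at_node
    (s := insert w (univ.image (wt L z))) (v := id) (r := fun u => if u = w then (1 : ℂ) else 0)
    Function.injective_id.injOn (i := wt L z q) (mem_insert_of_mem (mem_image_of_mem _ (mem_univ q)))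
  simp only [id_eq] at h
  rw [hp, h, comp]
  split_ifs <;> simp

lemma sum_comp {L : Fin n → ℤ} (z : Fin n → ℂ) (T : Car L) :
    ∑ w ∈ univ.image (wt L z), comp L z w T = T := by
  classical
  funext q
  rw [Finset.sum_apply, sum_eq_single (wt L z q)]
  · simp [comp]
  · intro w _ hw; simp [comp, Ne.symm hw]
  · intro h; exact absurd (mem_image_of_mem _ (mem_univ q)) h

/-- **Hilbert-Mumford necessity**: if an invariant form is nonzero at three module elements then
for every torus element some weights of their supports sum to zero. -/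
theorem exists_support_wt_eq_zero {L M N : Fin n → ℤ}
    (Φ : Car L →ₗ[ℂ] Car M →ₗ[ℂ] Car N →ₗ[ℂ] ℂ)
    (hΦ : ∀ X, IsSo X → ∀ a ∈ hwModule L, ∀ b ∈ hwModule M, ∀ c ∈ hwModule N,
      Φ (act L X a) b c + Φ a (act M X b) c + Φ a b (act N X c) = 0)
    {a : Car L} {b : Car M} {c : Car N} (ha : a ∈ hwModule L) (hb : b ∈ hwModule M)
    (hc : c ∈ hwModule N) (hne : Φ a b c ≠ 0) (z : Fin n → ℂ) :
    ∃ p q r, a p ≠ 0 ∧ b q ≠ 0 ∧ c r ≠ 0 ∧ wt L z p + wt M z q + wt N z r = 0 := by
  classical
  by_contra hcon
  push Not at hcon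
  apply hne
  rw [← sum_comp z a, ← sum_comp z b, ← sum_comp z c]
  simp only [map_sum, LinearMap.sum_apply]
  refine sum_eq_zero fun w _ => sum_eq_zero fun v _ => sum_eq_zero fun u _ => ?_
  have eig : ∀ (K : Fin n → ℤ) (T : Car K) (x : ℂ),
      act K (torus z) (comp K z x T) = x • comp K z x T := fun K T x => by
    funext s
    rw [act_torus, Pi.smul_apply, smul_eq_mul]
    simp only [comp]
    split_ifs with h
    · rw [h]
    · simp
  have h := hΦ _ (isSo_torus z) _ (comp_mem z u ha) _ (comp_mem z v hb) _ (comp_mem z w hc)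
  simp only [eig, map_smul, LinearMap.smul_apply, smul_eq_mul, ← add_mul] at h
  rcases mul_eq_zero.1 h with h0 | h0
  swap
  · exact h0
  have key : comp L z u a = 0 ∨ comp M z v b = 0 ∨ comp N z w c = 0 := by
    by_contra hk
    push Not at hk
    obtain ⟨p, hp⟩ := Function.ne_iff.1 hk.1
    obtain ⟨q, hq⟩ := Function.ne_iff.1 hk.2.1
    obtain ⟨r, hr⟩ := Function.ne_iff.1 hk.2.2
    simp only [comp, Pi.zero_apply, ne_eq, ite_eq_right_iff, not_forall] at hp hq hr
    obtain ⟨hpu, hp⟩ := hp
    obtain ⟨hqv, hq⟩ := hq
    obtain ⟨hrw, hr⟩ := hr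
    exact hcon p q r hp hq hr (by rw [hpu, hqv, hrw]; exact h0)
  rcases key with h1 | h1 | h1 <;> simp [h1]

end Vale.Agent.P182
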